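import Vale.Agent.P070.Statement
import Vale.Agent.P070.Bdl.B2

namespace Vale.Agent.Results.P070.NaimarkZFC

open Vale.Agent.P070.Naimark

universe v w

/-- There is a unital infinite-dimensional C*-algebra with property (N) which is not isomorphic
to the algebra of compact operators on any Hilbert space; it has a faithful irreducible
representation. No hypothesis beyond the standard axioms is used. -/
theorem result : ∃ (A : Type) (_ : CStarAlgebra A),
    PropertyN.{0, v} A ∧ ¬ IsCompacts.{0, w} A ∧
    ¬ FiniteDimensional ℂ A ∧ HasFaithfulIrrep.{0, 0} A :=
  main

end Vale.Agent.Results.P070.NaimarkZFC
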